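import Vale.Agent.P221.T.H903.Coind
import Vale.Agent.P221.H903.K9

/-!
# P221, part (E3): the action on the quotient

`exists_act` : if `q : P ⟶ B` satisfies `KHyp` for linear maps `x l`, and `H1P` holds, then `B` is an
`R`-module such that `q` is linear.
-/

open CategoryTheory MonoidalCategory MonObj Limits Pretriangulated
open Vale.Agent.P251.T Vale.Agent.P251.M Vale.Agent.P251.S
open Vale.Agent.P221.H903 (H1 Odd0 KHyp H1P)

set_option linter.unusedSectionVars false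

universe u

namespace Vale.Agent.P221.T.H903

variable {𝒯 : Type u} [Category.{0} 𝒯] [Preadditive 𝒯] [HasZeroObject 𝒯]
    [HasShift 𝒯 ℤ] [∀ n : ℤ, (shiftFunctor 𝒯 n).Additive] [Pretriangulated 𝒯] [IsTriangulated 𝒯]
    [MonoidalCategory 𝒯] [SymmetricCategory 𝒯] [TensorTriangulated 𝒯] [MonoidalClosed 𝒯]
    [HasCoproducts.{0} 𝒯] [HasProducts.{0} 𝒯] [StableCat 𝒯]

theorem sV_even (p a : ℕ) : Even (sV p a) := ⟨(p : ℤ) ^ a - 1, by unfold sV; ring⟩

theorem dT_even (p : ℕ) (E : ℕ →₀ ℕ) : Even (dT p E) := by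
  unfold dT
  rw [Finsupp.weight_apply]
  refine Finset.sum_induction _ Even (fun _ _ ha hb => ha.add hb) Even.zero fun i _ => ?_
  exact (sV_even p _).nsmul_right _

theorem dT_nonneg' (p : ℕ) [Fact p.Prime] (E : ℕ →₀ ℕ) : 0 ≤ dT p E := by
  unfold dT
  rw [Finsupp.weight_apply]
  refine Finset.sum_nonneg fun i _ => ?_
  refine nsmul_nonneg ?_ _
  have h3 : (1 : ℤ) ≤ (p : ℤ) ^ (i + 1) := by
    have h4 : 1 ≤ p ^ (i + 1) := Nat.one_le_pow _ _ (Fact.out : p.Prime).pos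
    exact_mod_cast h4
  unfold sV
  omega

theorem signProp_dd (p n l : ℕ) [Fact p.Prime] : SignProp 𝒯 (dd p n l) 1 := by
  have h := signProp_sV (𝒯 := 𝒯) p (n + l)
  rwa [show n + l + 1 = n + 1 + l by ring] at h

variable {p n : ℕ} [Fact p.Prime] {R P W : 𝒯} [MonObj R] [IsCommMonObj R] (b : BPS p R P W)

theorem coo_zero {Y : 𝒯} (E : ℕ →₀ ℕ) {k k' : ℤ} (h : k + dT p E = k') :
    coo b Y E h (0 : P⟦k⟧ ⟶ (ihom R).obj Y) = 0 := by
  have h1 : fm (tensorLeft R) (0 : P⟦k⟧ ⟶ (ihom R).obj Y) = 0 := by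
    rw [fm_tensorLeft, MonoidalPreadditive.whiskerLeft_zero, comp_zero]
  rw [coo, h1, zero_comp, gc_zero_right]

include b in
theorem odd0_ihom {Y : 𝒯} (hY : H395.PComplete p Y) (h : Odd0 P Y) : Odd0 P ((ihom R).obj Y) := by
  intro k hk f
  refine (coo_bij b hY k).1 (funext fun E => ?_)
  exact (h _ (hk.add_even (dT_even p E)) _).trans (coo_zero b E rfl).symm

include b in
theorem H1_ihom {x : ∀ l, P⟦dd p n l⟧ ⟶ P} (hx : ∀ l, IsLin b.MP b.MP (x l)) {Y : 𝒯}
    (hY : H395.PComplete p Y) (h : H1 x Y) : H1 x ((ihom R).obj Y) := by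
  intro m c hc ψ hψ
  have step : ∀ E : ℕ →₀ ℕ, ∃ φ : P⟦c + dT p E⟧ ⟶ Y, ∀ l < m, gc rfl (x l) φ =
      coo b Y E (show c + dd p n l + dT p E = c + dT p E + dd p n l by ring) (ψ l) := by
    intro E
    refine h m (c + dT p E) (by have := dT_nonneg' p E; omega)
      (fun l => coo b Y E (show c + dd p n l + dT p E = c + dT p E + dd p n l by ring) (ψ l))
      fun i hi l hl k' h' h'' => ?_
    have e1 : c + dd p n l + dd p n i = k' - dT p E := by omega
    have e2 : c + dd p n i + dd p n l = k' - dT p E := by omega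
    rw [← coo_gc b E (signProp_dd p n i) e1 (sub_add_cancel k' _) _ h' (hx i),
      ← coo_gc b E (signProp_dd p n l) e2 (sub_add_cancel k' _) _ h'' (hx l),
      hψ i hi l hl _ e1 e2]
  choose φ hφ using step
  obtain ⟨f, hf⟩ := (coo_bij b hY c).2 φ
  refine ⟨f, fun l hl => (coo_bij b hY (c + dd p n l)).1 (funext fun E => ?_)⟩
  have key : ∀ (k' : ℤ) (h₁ : c + dT p E + dd p n l = k') (h₂ : c + dd p n l + dT p E = k'),
      gc h₁ (x l) (φ E) = coo b Y E h₂ (ψ l) := by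
    intro k' h₁ h₂
    subst h₁
    exact hφ E l hl
  have hfE : coo b Y E rfl f = φ E := congrFun hf E
  have h₃ : c + dT p E + dd p n l = c + dd p n l + dT p E := by ring
  change coo b Y E rfl (gc rfl (x l) f) = coo b Y E rfl (ψ l)
  rw [coo_gc b E (signProp_dd p n l) rfl rfl rfl h₃ (hx l), hfE, key]

theorem comp_act_eq_zero {x : ∀ l, P⟦dd p n l⟧ ⟶ P} (hx : ∀ l, IsLin b.MP b.MP (x l)) {B : 𝒯}
    {q : P ⟶ B} (hq : ∀ l, x l ≫ q = 0) (l : ℕ) : R ◁ x l ≫ b.MP.act ≫ q = 0 := by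
  have h1 : fm (tensorLeft R) (x l) ≫ b.MP.act = b.MP.act⟦dd p n l⟧' ≫ x l := hx l
  rw [fm_tensorLeft, Category.assoc, Iso.inv_comp_eq] at h1
  rw [reassoc_of% h1, hq, comp_zero, comp_zero]

/-- **The action.** -/
theorem exists_act {C : 𝒯} (hC : ∃ (i : 𝟙_ 𝒯 ⟶ C) (δ : C ⟶ (𝟙_ 𝒯)⟦(1 : ℤ)⟧),
      Triangle.mk ((p : ℤ) • 𝟙 (𝟙_ 𝒯)) i δ ∈ distTriang 𝒯) {x : ∀ l, P⟦dd p n l⟧ ⟶ P}
    (hx : ∀ l, IsLin b.MP b.MP (x l)) {B : 𝒯} {q : P ⟶ B} (H : KHyp p C x q)
    (hP : H1P p C x H.pP) : ∃ MB : ModStr R B, b.MP.IsLinear MB q := by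
  have hB := H.pB
  have h1 : H1 x B := H.H1_B hC hP
  have h0 : Odd0 P B := H.odd0
  have hB1 := pcomplete_ihom R hB
  have h11 := H1_ihom b hx hB h1
  have h01 := odd0_ihom b hB h0
  have hB2 := pcomplete_ihom R hB1
  have h12 := H1_ihom b hx hB1 h11
  have h02 := odd0_ihom b hB1 h01
  obtain ⟨β, hβ⟩ := H.extend hC hB1 h11 (MonoidalClosed.curry (b.MP.act ≫ q)) (fun l => by
    rw [← MonoidalClosed.curry_natural_left, comp_act_eq_zero b hx H.x_q l]
    apply MonoidalClosed.uncurry_injective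
    rw [MonoidalClosed.uncurry_curry, uncurry_evq, MonoidalPreadditive.whiskerLeft_zero, zero_comp])
  obtain ⟨act, rfl⟩ : ∃ act : R ⊗ B ⟶ B, MonoidalClosed.curry act = β :=
    ⟨MonoidalClosed.uncurry β, MonoidalClosed.curry_uncurry β⟩
  rw [← MonoidalClosed.curry_natural_left] at hβ
  have hq : R ◁ q ≫ act = b.MP.act ≫ q := MonoidalClosed.curry_injective hβ
  refine ⟨⟨act, ?_, ?_⟩, hq.symm⟩
  · -- the unit
    have h2 := H.unique hC hB h1 h0 ((λ_ B).inv ≫ (η[R] ▷ B) ≫ act - 𝟙 B) (by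
      rw [Preadditive.comp_sub, Category.comp_id, leftUnitor_inv_naturality_assoc,
        whisker_exchange_assoc, hq, reassoc_of% b.MP.one_act, Iso.inv_hom_id_assoc, sub_self])
    rw [sub_eq_zero] at h2
    rw [← cancel_epi (λ_ B).inv, h2, Iso.inv_hom_id]
  · -- associativity
    have h2 := H.unique hC hB2 h12 h02 (MonoidalClosed.curry (MonoidalClosed.curry
      ((α_ R R B).inv ≫ (μ[R] ▷ B) ≫ act - R ◁ act ≫ act))) (by
      rw [← MonoidalClosed.curry_natural_left, ← MonoidalClosed.curry_natural_left]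
      have h3 : R ◁ R ◁ q ≫ ((α_ R R B).inv ≫ (μ[R] ▷ B) ≫ act - R ◁ act ≫ act) = 0 := by
        rw [Preadditive.comp_sub, associator_inv_naturality_right_assoc, whisker_exchange_assoc,
          hq, ← MonoidalCategory.whiskerLeft_comp_assoc, hq, MonoidalCategory.whiskerLeft_comp_assoc,
          hq, reassoc_of% b.MP.mul_act, Iso.inv_hom_id_assoc, sub_self]
      rw [h3]
      apply MonoidalClosed.uncurry_injective
      rw [MonoidalClosed.uncurry_curry, uncurry_evq, MonoidalPreadditive.whiskerLeft_zero,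
        zero_comp]
      apply MonoidalClosed.uncurry_injective
      rw [MonoidalClosed.uncurry_curry, uncurry_evq, MonoidalPreadditive.whiskerLeft_zero,
        zero_comp])
    have h4 : (α_ R R B).inv ≫ (μ[R] ▷ B) ≫ act - R ◁ act ≫ act = 0 := by
      apply MonoidalClosed.curry_injective
      apply MonoidalClosed.curry_injective
      rw [h2]
      apply MonoidalClosed.uncurry_injective
      rw [MonoidalClosed.uncurry_curry, uncurry_evq, MonoidalPreadditive.whiskerLeft_zero,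
        zero_comp]
      apply MonoidalClosed.uncurry_injective
      rw [MonoidalClosed.uncurry_curry, uncurry_evq, MonoidalPreadditive.whiskerLeft_zero,
        zero_comp]
    rw [sub_eq_zero, Iso.inv_comp_eq] at h4
    exact h4

end Vale.Agent.P221.T.H903
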