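import Vale.Agent.P221.H903.R3
import Vale.Agent.P221.H903.E3

/-!
# P221, part (E3-0): `PHyp` for the complete Brown-Peterson spectrum

`pHyp` : the hypotheses on `P` and the linear extensions `xc l` of polynomial generators
`x l = v_{n+1+l}` modulo `(p, v_1, …)²`.
-/

open CategoryTheory MonoidalCategory MonObj Limits Pretriangulated
open Vale.Agent.P251.T Vale.Agent.P251.S Vale.Agent.P221.H395 Vale.Agent.P221.T
open Vale.Agent.P221.T.H609 (map_of map_zs of_cls kk_mem kk_unit_inj kk_mul_apply kk_add_apply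
  kk_zero_apply kk_sum_apply ext_zero_shift)
open Vale.Agent.P221.T.H924 (red eq_zero_or exists_mod red_isWH red_RN sV_eq)

set_option linter.unusedSectionVars false

universe u

namespace Vale.Agent.P221.H903

variable {𝒯 : Type u} [Category.{0} 𝒯] [Preadditive 𝒯] [HasZeroObject 𝒯]
    [HasShift 𝒯 ℤ] [∀ n : ℤ, (shiftFunctor 𝒯 n).Additive] [Pretriangulated 𝒯] [IsTriangulated 𝒯]
    [MonoidalCategory 𝒯] [SymmetricCategory 𝒯] [TensorTriangulated 𝒯] [MonoidalClosed 𝒯]
    [HasCoproducts.{0} 𝒯] [HasProducts.{0} 𝒯] [StableCat 𝒯]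

variable {p n : ℕ} [Fact p.Prime] {R P W : 𝒯} [MonObj R] [IsCommMonObj R] (b : BPS p R P W)
  {x : ℕ → KK p} (x_deg : ∀ l, HK p (dd p n l) (x l))
  {xc : ∀ l, P⟦dd p n l⟧ ⟶ P}
  (hx : ∀ l, b.c⟦dd p n l⟧' ≫ xc l = hat b.MP (b.cls (dd p n l) (x l)))

include hx

theorem isLin_xc (l : ℕ) : IsLin b.MP b.MP (xc l) := b.isLin_of_c b.cP (by
  rw [hx]
  exact hat_isLin _ _)

include x_deg

theorem gc_cls_xc (l : ℕ) {k k' : ℤ} (h : dd p n l + k = k') {f : KK p} (hf : HK p k f) :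
    gc h (b.cls k f) (xc l) = b.cls k' (x l * f) := by
  have h1 : HK p k' (x l * f) := by
    rw [← h]
    exact (x_deg l).mul hf
  refine PiM.of_injective P k' ?_
  rw [← map_of h, of_cls b hf, b.kk_lin b.MP b.cP b.MP b.cP _ (isLin_xc b hx l), of_cls b h1,
    _root_.mul_comm, kk_mul_apply]
  congr 1
  unfold BPS.unit
  rw [map_of (add_zero (dd p n l)), gc_unit_shift, Functor.map_comp, Category.assoc, hx,
    unit_hat, of_cls b (x_deg l)]
  rfl

theorem xcomm : XComm xc := by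
  intro i l k h h'
  refine b.ext_c b.cP ?_
  rw [comp_gc, comp_gc, hx, hx]
  refine isLin_self_ext (M := b.MP) ((hat_isLin b.MP _).gc (isLin_xc b hx i) h)
    ((hat_isLin b.MP _).gc (isLin_xc b hx l) h') ?_
  rw [comp_gc, comp_gc, unit_hat, unit_hat, gc_cls_xc b x_deg hx i h (x_deg l),
    gc_cls_xc b x_deg hx l h' (x_deg i), _root_.mul_comm]

variable {C : 𝒯} {i : 𝟙_ 𝒯 ⟶ C} {δ : C ⟶ (𝟙_ 𝒯)⟦(1 : ℤ)⟧}
  (hC : Triangle.mk ((p : ℤ) • 𝟙 (𝟙_ 𝒯)) i δ ∈ distTriang 𝒯)

theorem xh_clsc (l : ℕ) {k k' : ℤ} (h : k + dd p n l = k') {f : KK p} (hf : HK p k f) :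
    xh xc C l h (b.cls k f ≫ rd i P) = b.cls k' (x l * f) ≫ rd i P := by
  rw [xh_apply _ _ (show dd p n l + k = k' by omega), gc_rd, gc_cls_xc b x_deg hx l _ hf]

/-- representations in terms of homotopy classes -/
theorem sum_xhc {m : ℕ} {k : ℤ} {f f' : KK p} {w : ℕ → KK p}
    (hw : ∀ l, HK p (k - dd p n l) (w l)) (hf' : HK p k f')
    (e : f = ∑ l ∈ Finset.range m, x l * w l + (p : KK p) * f')
    (hC : Triangle.mk ((p : ℤ) • 𝟙 (𝟙_ 𝒯)) i δ ∈ distTriang 𝒯) :
    b.cls k f ≫ rd i P = ∑ l ∈ Finset.range m,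
      xh xc C l (sub_add_cancel k (dd p n l)) (b.cls (k - dd p n l) (w l) ≫ rd i P) := by
  have h1 : ∀ l, HK p k (x l * w l) := fun l => by
    have := (x_deg l).mul (hw l)
    rwa [add_sub_cancel] at this
  rw [e, cls_add b (hk_sum p _ _ fun l _ => h1 l) (hk_p hf'), cls_sum b _ _ fun l _ => h1 l,
    cls_p b hf', Preadditive.add_comp, zsmul_rd hC, _root_.add_zero, Preadditive.sum_comp]
  exact Finset.sum_congr rfl fun l _ => (xh_clsc b x_deg hx l _ (hw l)).symm

include hC in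
/-- **(E3-0)** -/
theorem pHyp (x_mod : ∀ l, x l - MvPolynomial.X (n + l) ∈ II p ^ 2)
    (hPar : ∀ K : 𝒯, H395.PComplete p K →
      (∀ (j : ℤ) (f : (𝟙_ 𝒯)⟦2 * j⟧ ⟶ K), f = 0) → ∀ f : P ⟶ K, f = 0) :
    PHyp p C xc where
  pP := b.cP
  comm := xcomm b x_deg hx
  even l := even_two_mul _
  nonneg l := H769.dd_nonneg (Fact.out : p.Prime).pos n l
  cP := conc_P b hC
  par K hK hc f := hPar K hK (fun j g => hK.hom_eq_zero_of_mod hC (fun g => hc (2 * j)
    ⟨j - 1, by ring⟩ g) g) f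
  reg m k y w e := by
    obtain ⟨f, hf, rfl⟩ := exists_cls_rd b hC y
    choose g hg hgw using fun l => exists_cls_rd b hC (w l)
    have hg1 : ∀ l, HK p (k + dd p n m) (x l * g l) := fun l => by
      have := (x_deg l).mul (hg l)
      rwa [add_sub_cancel] at this
    have hf1 : HK p (k + dd p n m) (x m * f) := by
      have := (x_deg m).mul hf
      rwa [add_comm] at this
    have h1 : b.cls (k + dd p n m) (x m * f - ∑ l ∈ Finset.range m, x l * g l) ≫ rd i P = 0 := by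
      have h2 : b.cls (k + dd p n m) (x m * f - ∑ l ∈ Finset.range m, x l * g l) +
          b.cls (k + dd p n m) (∑ l ∈ Finset.range m, x l * g l) =
            b.cls (k + dd p n m) (x m * f) := by
        rw [← cls_add b (hk_sub p hf1 (hk_sum p _ _ fun l _ => hg1 l))
          (hk_sum p _ _ fun l _ => hg1 l), sub_add_cancel]
      rw [eq_sub_of_add_eq h2, Preadditive.sub_comp, sub_eq_zero, ← xh_clsc b x_deg hx m rfl hf, e,
        cls_sum b _ _ fun l _ => hg1 l, Preadditive.sum_comp]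
      refine Finset.sum_congr rfl fun l _ => ?_
      rw [hgw l]
      exact xh_clsc b x_deg hx l _ (hg l)
    have h2 := red_of_cls_rd b hC (hk_sub p hf1 (hk_sum p _ _ fun l _ => hg1 l)) h1
    rw [map_sub, sub_eq_zero, map_mul, map_sum] at h2
    obtain ⟨h, e'⟩ := reg_red p x_deg x_mod m (red p f) (fun l => red p (g l)) (by
      rw [h2]
      exact Finset.sum_congr rfl fun l _ => map_mul _ _ _)
    obtain ⟨w', hw', f', hf', e''⟩ := exists_of_red p x_deg hf m h e'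
    exact ⟨fun l => b.cls (k - dd p n l) (w' l) ≫ rd i P, sum_xhc b x_deg hx hw' hf' e'' hC⟩

end Vale.Agent.P221.H903
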