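import Vale.Agent.P221.T.H817.Comm
import Vale.Agent.P221.T.SrcDef

/-!
# P221, part (E3): the coinduced module and the freeness of `R ⊗ P` over the last factor

* `coind R Y` : the `R`-module `(ihom R).obj Y`, `eps : (ihom R).obj Y ⟶ Y` the evaluation at the unit;
* `lam M t : N⟦e⟧ ⟶ R ⊗ N` : the product of `t : 𝟙⟦e⟧ ⟶ R ⊗ R` with the module `N` on the right;
* `BPS.coo b Y E a : P⟦k + dT p E⟧ ⟶ Y` for `a : P⟦k⟧ ⟶ (ihom R).obj Y`; `BPS.coo_bij`;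
* `BPS.coo_gc` : compatibility with linear maps `P⟦m⟧ ⟶ P`.
-/

open CategoryTheory MonoidalCategory MonObj Limits Pretriangulated
open Vale.Agent.P251.T Vale.Agent.P251.M Vale.Agent.P251.S

set_option linter.unusedSectionVars false

universe u

namespace Vale.Agent.P221.T.H903

variable {𝒯 : Type u} [Category.{0} 𝒯] [Preadditive 𝒯] [HasZeroObject 𝒯]
    [HasShift 𝒯 ℤ] [∀ n : ℤ, (shiftFunctor 𝒯 n).Additive] [Pretriangulated 𝒯] [IsTriangulated 𝒯]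
    [MonoidalCategory 𝒯] [SymmetricCategory 𝒯] [TensorTriangulated 𝒯] [MonoidalClosed 𝒯]
    [HasCoproducts.{0} 𝒯] [HasProducts.{0} 𝒯] [StableCat 𝒯]

/-- the interchange law for graded maps -/
theorem interchange {e m k : ℤ} (hm : SignProp 𝒯 m 1) (h : m + e = k) (h' : e + m = k)
    {Z Z' N N' : 𝒯} (t : Z⟦e⟧ ⟶ Z') (γ : N⟦m⟧ ⟶ N') :
    gc h (fm (tensorRight N) t) (fm (tensorLeft Z') γ) =
      gc h' (fm (tensorLeft Z) γ) (fm (tensorRight N') t) := by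
  have h1 := csh_tensorRight hm e Z N
  have h2 : ((csh Z m N).inv)⟦e⟧' ≫ (rsh e Z (N⟦m⟧)).inv =
      (shiftFunctorComm 𝒯 e m).inv.app (Z ⊗ N) ≫ ((rsh e Z N).inv)⟦m⟧' ≫
        (csh (Z⟦e⟧) m N).inv := by
    rw [← cancel_mono ((rsh e Z (N⟦m⟧)).hom ≫ ((csh Z m N).hom)⟦e⟧'), h1]
    have h3 : ((csh Z m N).inv)⟦e⟧' ≫ ((csh Z m N).hom)⟦e⟧' = 𝟙 _ := by
      rw [← Functor.map_comp, Iso.inv_hom_id, CategoryTheory.Functor.map_id]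
    have h4 : ((rsh e Z N).inv)⟦m⟧' ≫ ((rsh e Z N).hom)⟦m⟧' = 𝟙 _ := by
      rw [← Functor.map_comp, Iso.inv_hom_id, CategoryTheory.Functor.map_id]
    simp only [Category.assoc]
    rw [← h1]
    simp only [Iso.inv_hom_id_assoc]
    rw [h3, h1, Iso.inv_hom_id_assoc, reassoc_of% h4, Iso.inv_hom_id_app]
    rfl
  have e1 : (t ▷ N)⟦m⟧' ≫ (csh Z' m N).inv = (csh (Z⟦e⟧) m N).inv ≫ t ▷ (N⟦m⟧) :=
    csh_inv_tlMap t m N
  have e2 : (Z ◁ γ)⟦e⟧' ≫ (rsh e Z N').inv = (rsh e Z (N⟦m⟧)).inv ≫ (Z⟦e⟧ ◁ γ) := by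
    rw [Iso.comp_inv_eq, Category.assoc, rsh_nat_right, Iso.inv_hom_id_assoc]
  have h5 : (shiftFunctorAdd' 𝒯 m e k (by omega)).hom.app (Z ⊗ N) ≫
      (shiftFunctorComm 𝒯 e m).inv.app (Z ⊗ N) =
        (shiftFunctorAdd' 𝒯 e m k (by omega)).hom.app (Z ⊗ N) := by
    rw [shiftFunctorComm_eq 𝒯 e m k (by omega)]
    exact Iso.hom_inv_id_app_assoc _ _ _
  change (shiftFunctorAdd' 𝒯 e m k (by omega)).hom.app (Z ⊗ N) ≫
      ((rsh e Z N).inv ≫ t ▷ N)⟦m⟧' ≫ (csh Z' m N).inv ≫ Z' ◁ γ =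
    (shiftFunctorAdd' 𝒯 m e k (by omega)).hom.app (Z ⊗ N) ≫
      ((csh Z m N).inv ≫ Z ◁ γ)⟦e⟧' ≫ (rsh e Z N').inv ≫ t ▷ N'
  rw [Functor.map_comp, Functor.map_comp, Category.assoc, Category.assoc, reassoc_of% e1,
    reassoc_of% e2, reassoc_of% h2, reassoc_of% h5, ← whisker_exchange]

/-- compatibility with the left unitor -/
theorem comp_lun {m : ℤ} {N N' : 𝒯} (γ : N⟦m⟧ ⟶ N') :
    γ ≫ (λ_ N').inv = ((λ_ N).inv)⟦m⟧' ≫ fm (tensorLeft (𝟙_ 𝒯)) γ := by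
  have h1 := csh_leftUnitor m N
  have h2 : ((λ_ N).inv)⟦m⟧' ≫ (csh (𝟙_ 𝒯) m N).inv = (λ_ (N⟦m⟧)).inv := by
    rw [Iso.comp_inv_eq, ← cancel_epi (λ_ (N⟦m⟧)).hom, Iso.hom_inv_id_assoc, ← h1, Category.assoc,
      ← Functor.map_comp, Iso.hom_inv_id, CategoryTheory.Functor.map_id, Category.comp_id]
  rw [fm_tensorLeft, reassoc_of% h2, leftUnitor_inv_naturality]

section lam

variable {R : 𝒯} [MonObj R] {N N' : 𝒯}

/-- the product of `t : 𝟙⟦e⟧ ⟶ R ⊗ R` with the module `N` on the right -/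
noncomputable def lam (M : ModStr R N) {e : ℤ} (t : (𝟙_ 𝒯)⟦e⟧ ⟶ R ⊗ R) : N⟦e⟧ ⟶ R ⊗ N :=
  ((λ_ N).inv)⟦e⟧' ≫ fm (tensorRight N) t ≫ (α_ R R N).hom ≫ R ◁ M.act

/-- naturality of `lam` for graded linear maps -/
theorem lam_gc {M : ModStr R N} {M' : ModStr R N'} {e m k : ℤ} (hm : SignProp 𝒯 m 1)
    (h : m + e = k) (h' : e + m = k) {γ : N⟦m⟧ ⟶ N'} (hγ : IsLin M M' γ)
    (t : (𝟙_ 𝒯)⟦e⟧ ⟶ R ⊗ R) :
    gc h (lam M t) (fm (tensorLeft R) γ) = gc h' γ (lam M' t) := by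
  have k1 : ((α_ R R N).hom ≫ R ◁ M.act)⟦m⟧' ≫ fm (tensorLeft R) γ =
      fm (tensorLeft (R ⊗ R)) γ ≫ (α_ R R N').hom ≫ R ◁ M'.act := by
    have h1 : ((α_ R R N).hom)⟦m⟧' ≫ fm (tensorLeft R) (fm (tensorLeft R) γ) =
        fm (tensorLeft (R ⊗ R)) γ ≫ (α_ R R N').hom := by
      have h2 := fm_assoc R R γ
      rw [← Iso.comp_inv_eq, Category.assoc, h2, ← Functor.map_comp_assoc, Iso.hom_inv_id,
        CategoryTheory.Functor.map_id, Category.id_comp]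
    have h3 : (R ◁ M.act)⟦m⟧' ≫ fm (tensorLeft R) γ =
        fm (tensorLeft R) (fm (tensorLeft R) γ) ≫ R ◁ M'.act := by
      have h4 : fm (tensorLeft R) γ ≫ M'.act = M.act⟦m⟧' ≫ γ := hγ
      have h5 := congrArg (fun z => fm (tensorLeft R) z) h4
      rw [fm_comp, shift_fm] at h5
      exact h5.symm
    rw [Functor.map_comp, Category.assoc, h3, reassoc_of% h1]
  unfold lam
  rw [← comp_gc, gc_map, k1, gc_comp, interchange hm h h' t γ, ← gc_comp, ← gc_map, comp_lun,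
    ← comp_gc]

end lam

section comm

variable {R : 𝒯} [MonObj R] [IsCommMonObj R]

/-- `lam` for `N = R` -/
theorem lam_self {e : ℤ} (t : (𝟙_ 𝒯)⟦e⟧ ⟶ R ⊗ R) :
    lam (ModStr.self R) (t ≫ (β_ R R).hom) = hat (ModStr.free R R) t ≫ (β_ R R).hom := by
  have h1 : fm (tensorRight R) t = ((β_ (𝟙_ 𝒯) R).hom)⟦e⟧' ≫ fm (tensorLeft R) t ≫
      (β_ R (R ⊗ R)).hom := by
    change (rsh e (𝟙_ 𝒯) R).inv ≫ t ▷ R = ((β_ (𝟙_ 𝒯) R).hom)⟦e⟧' ≫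
      ((csh R e (𝟙_ 𝒯)).inv ≫ R ◁ t) ≫ (β_ R (R ⊗ R)).hom
    rw [Iso.inv_comp_eq, rsh_eq]
    have h2 : ((β_ R (𝟙_ 𝒯)).hom)⟦e⟧' ≫ ((β_ (𝟙_ 𝒯) R).hom)⟦e⟧' = 𝟙 _ := by
      rw [← Functor.map_comp, SymmetricCategory.symmetry, CategoryTheory.Functor.map_id]
    simp only [Category.assoc]
    rw [reassoc_of% h2, Iso.hom_inv_id_assoc, BraidedCategory.braiding_naturality_right,
      SymmetricCategory.symmetry_assoc]
  have h3 : (β_ R (R ⊗ R)).hom ≫ (β_ R R).hom ▷ R ≫ (α_ R R R).hom ≫ R ◁ μ[R] =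
      ((α_ R R R).inv ≫ μ[R] ▷ R) ≫ (β_ R R).hom := by
    rw [Category.assoc, BraidedCategory.braiding_naturality_left]
    have h4 := BraidedCategory.yang_baxter R R R
    have h5 : R ◁ (β_ R R).hom ≫ R ◁ μ[R] = R ◁ μ[R] := by
      rw [← MonoidalCategory.whiskerLeft_comp, IsCommMonObj.mul_comm]
    rw [BraidedCategory.braiding_tensor_right_hom, BraidedCategory.braiding_tensor_left_hom]
    simp only [Category.assoc] at h4 ⊢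
    rw [reassoc_of% h4, Iso.inv_hom_id_assoc, h5]
  have h6 : ((λ_ R).inv)⟦e⟧' ≫ ((β_ (𝟙_ 𝒯) R).hom)⟦e⟧' = ((ρ_ R).inv)⟦e⟧' := by
    rw [← Functor.map_comp, leftUnitor_inv_braiding]
  unfold lam
  rw [fm_comp, h1]
  change ((λ_ R).inv)⟦e⟧' ≫ ((((β_ (𝟙_ 𝒯) R).hom)⟦e⟧' ≫ fm (tensorLeft R) t ≫
      (β_ R (R ⊗ R)).hom) ≫ (β_ R R).hom ▷ R) ≫ (α_ R R R).hom ≫ R ◁ μ[R] =
    (((ρ_ R).inv)⟦e⟧' ≫ fm (tensorLeft R) t ≫ ((α_ R R R).inv ≫ μ[R] ▷ R)) ≫ (β_ R R).hom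
  simp only [Category.assoc] at h3 ⊢
  rw [reassoc_of% h6, h3]

end comm

/-! ### The coinduced module -/

section coind

variable (R : 𝒯) [MonObj R] (Y : 𝒯)

/-- the evaluation -/
noncomputable def evq : R ⊗ (ihom R).obj Y ⟶ Y := (ihom.ev R).app Y

theorem uncurry_evq {X : 𝒯} (a : X ⟶ (ihom R).obj Y) :
    MonoidalClosed.uncurry a = R ◁ a ≫ evq R Y := MonoidalClosed.uncurry_eq a

/-- the action on the coinduced module -/
noncomputable def coact : R ⊗ (ihom R).obj Y ⟶ (ihom R).obj Y :=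
  MonoidalClosed.curry ((α_ R R ((ihom R).obj Y)).inv ≫ (μ[R] ▷ ((ihom R).obj Y)) ≫ evq R Y)

theorem coact_evq : R ◁ coact R Y ≫ evq R Y =
    (α_ R R ((ihom R).obj Y)).inv ≫ (μ[R] ▷ ((ihom R).obj Y)) ≫ evq R Y := by
  rw [← uncurry_evq, coact, MonoidalClosed.uncurry_curry]

/-- the coinduced module -/
noncomputable def coind : ModStr R ((ihom R).obj Y) where
  act := coact R Y
  one_act := by
    apply MonoidalClosed.uncurry_injective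
    rw [uncurry_evq, uncurry_evq, MonoidalCategory.whiskerLeft_comp, Category.assoc, coact_evq,
      associator_inv_naturality_middle_assoc, ← comp_whiskerRight_assoc, MonObj.mul_one]
    simp
  mul_act := by
    apply MonoidalClosed.uncurry_injective
    rw [uncurry_evq, uncurry_evq]
    simp only [MonoidalCategory.whiskerLeft_comp, Category.assoc]
    rw [coact_evq, associator_inv_naturality_middle_assoc, associator_inv_naturality_right_assoc,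
      whisker_exchange_assoc, coact_evq, associator_inv_naturality_left_assoc,
      ← comp_whiskerRight_assoc, ← comp_whiskerRight_assoc]
    have h1 : R ◁ (α_ R R ((ihom R).obj Y)).hom ≫ (α_ R R (R ⊗ (ihom R).obj Y)).inv ≫
        (α_ (R ⊗ R) R ((ihom R).obj Y)).inv ≫ (α_ R R R).hom ▷ ((ihom R).obj Y) =
          (α_ R (R ⊗ R) ((ihom R).obj Y)).inv := by simp
    rw [MonObj.mul_assoc, comp_whiskerRight (α_ R R R).hom, Category.assoc, reassoc_of% h1]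

/-- the evaluation at the unit -/
noncomputable def eps : (ihom R).obj Y ⟶ Y :=
  (λ_ ((ihom R).obj Y)).inv ≫ (η[R] ▷ ((ihom R).obj Y)) ≫ evq R Y

theorem act_eps : (coind R Y).act ≫ eps R Y = evq R Y := by
  change coact R Y ≫ (λ_ _).inv ≫ (η[R] ▷ _) ≫ evq R Y = evq R Y
  rw [leftUnitor_inv_naturality_assoc, whisker_exchange_assoc, coact_evq]
  have h1 : (λ_ (R ⊗ (ihom R).obj Y)).inv ≫ η[R] ▷ (R ⊗ (ihom R).obj Y) ≫
      (α_ R R ((ihom R).obj Y)).inv = ((λ_ R).inv ≫ η[R] ▷ R) ▷ ((ihom R).obj Y) := by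
    rw [associator_inv_naturality_left]
    simp
  have h2 : ((λ_ R).inv ≫ η[R] ▷ R) ≫ μ[R] = 𝟙 R := by
    rw [Category.assoc, MonObj.one_mul, Iso.inv_hom_id]
  rw [reassoc_of% h1, ← comp_whiskerRight_assoc, h2, id_whiskerRight, Category.id_comp]

theorem ext_eps {X : 𝒯} {k : ℤ} (a : X⟦k⟧ ⟶ (ihom R).obj Y) :
    ext (coind R Y) a ≫ eps R Y = fm (tensorLeft R) a ≫ evq R Y := by
  unfold ext
  rw [Category.assoc, act_eps]

theorem fm_evq {X : 𝒯} {k : ℤ} (a : X⟦k⟧ ⟶ (ihom R).obj Y) :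
    fm (tensorLeft R) a ≫ evq R Y = (csh R k X).inv ≫ MonoidalClosed.uncurry a := by
  rw [fm_tensorLeft, Category.assoc, uncurry_evq]

theorem fm_evq_inj {X : 𝒯} {k : ℤ} {a a' : X⟦k⟧ ⟶ (ihom R).obj Y}
    (h : fm (tensorLeft R) a ≫ evq R Y = fm (tensorLeft R) a' ≫ evq R Y) : a = a' := by
  rw [fm_evq, fm_evq, cancel_epi] at h
  exact MonoidalClosed.uncurry_injective h

theorem fm_evq_surj {X : 𝒯} {k : ℤ} (g : (R ⊗ X)⟦k⟧ ⟶ Y) :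
    ∃ a : X⟦k⟧ ⟶ (ihom R).obj Y, fm (tensorLeft R) a ≫ evq R Y = g := by
  refine ⟨MonoidalClosed.curry ((csh R k X).hom ≫ g), ?_⟩
  rw [fm_evq, MonoidalClosed.uncurry_curry, Iso.inv_hom_id_assoc]

theorem hat_eps_inj {k : ℤ} {z z' : (𝟙_ 𝒯)⟦k⟧ ⟶ (ihom R).obj Y}
    (h : hat (coind R Y) z ≫ eps R Y = hat (coind R Y) z' ≫ eps R Y) : z = z' := by
  unfold hat at h
  rw [Category.assoc, Category.assoc, cancel_epi, ext_eps, ext_eps] at h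
  exact fm_evq_inj R Y h

theorem hat_eps_surj {k : ℤ} (g : R⟦k⟧ ⟶ Y) :
    ∃ z : (𝟙_ 𝒯)⟦k⟧ ⟶ (ihom R).obj Y, hat (coind R Y) z ≫ eps R Y = g := by
  obtain ⟨z, hz⟩ := fm_evq_surj R Y (((ρ_ R).hom)⟦k⟧' ≫ g)
  refine ⟨z, ?_⟩
  unfold hat
  rw [Category.assoc, ext_eps, hz, ← Functor.map_comp_assoc, Iso.inv_hom_id,
    CategoryTheory.Functor.map_id, Category.id_comp]

variable {Y} in
theorem pcomplete_ihom {p : ℕ} (hY : H395.PComplete p Y) : H395.PComplete p ((ihom R).obj Y) := by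
  intro V hV g
  have h1 : IsIso ((p : ℤ) • 𝟙 (R ⊗ V)) := by
    have h2 : (p : ℤ) • 𝟙 (R ⊗ V) = R ◁ ((p : ℤ) • 𝟙 V) := by
      rw [← MonoidalCategory.whiskerLeft_id]
      exact ((tensorLeft R).map_zsmul).symm
    rw [h2]
    infer_instance
  apply MonoidalClosed.uncurry_injective
  rw [hY (R ⊗ V) h1 (MonoidalClosed.uncurry g), uncurry_evq, MonoidalPreadditive.whiskerLeft_zero,
    zero_comp]

end coind

/-! ### The freeness over the last factor -/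

section

variable {p : ℕ} [Fact p.Prime] {R P W : 𝒯} [MonObj R] [IsCommMonObj R] (b : BPS p R P W)

/-- the coordinates of `a : P⟦k⟧ ⟶ (ihom R).obj Y` -/
noncomputable def coo (Y : 𝒯) (E : ℕ →₀ ℕ) {k k' : ℤ} (h : k + dT p E = k')
    (a : P⟦k⟧ ⟶ (ihom R).obj Y) : P⟦k'⟧ ⟶ Y :=
  gc h (lam b.MP (b.τ E ≫ (β_ R R).hom)) (fm (tensorLeft R) a ≫ evq R Y)

theorem coo_gc {Y : 𝒯} (E : ℕ →₀ ℕ) {m k k₁ k₂ k' : ℤ} (hm : SignProp 𝒯 m 1) (h : k + m = k₁)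
    (h₁ : k₁ + dT p E = k') (h₂ : k + dT p E = k₂) (h₃ : k₂ + m = k') {γ : P⟦m⟧ ⟶ P}
    (hγ : IsLin b.MP b.MP γ) (a : P⟦k⟧ ⟶ (ihom R).obj Y) :
    coo b Y E h₁ (gc h γ a) = gc h₃ γ (coo b Y E h₂ a) := by
  unfold coo
  rw [fm_gc, ← gc_comp, gc_assoc _ _ _ h h₁ (k₂ := m + dT p E) rfl (by omega),
    lam_gc hm rfl (by omega) hγ, ← gc_assoc _ _ _ h₂ h₃ (by omega) (by omega)]

theorem c_lam (e : ℤ) (t : (𝟙_ 𝒯)⟦e⟧ ⟶ R ⊗ R) :
    b.c⟦e⟧' ≫ lam b.MP t = lam (ModStr.self R) t ≫ R ◁ b.c := by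
  have h1 : b.c⟦e⟧' ≫ ((λ_ P).inv)⟦e⟧' = ((λ_ R).inv)⟦e⟧' ≫ (𝟙_ 𝒯 ◁ b.c)⟦e⟧' := by
    rw [← Functor.map_comp, ← Functor.map_comp, leftUnitor_inv_naturality]
  have h2 : (𝟙_ 𝒯 ◁ b.c)⟦e⟧' ≫ fm (tensorRight P) t = fm (tensorRight R) t ≫ (R ⊗ R) ◁ b.c := by
    change (𝟙_ 𝒯 ◁ b.c)⟦e⟧' ≫ (rsh e (𝟙_ 𝒯) P).inv ≫ t ▷ P =
      ((rsh e (𝟙_ 𝒯) R).inv ≫ t ▷ R) ≫ (R ⊗ R) ◁ b.c
    have h3 : (𝟙_ 𝒯 ◁ b.c)⟦e⟧' ≫ (rsh e (𝟙_ 𝒯) P).inv =
        (rsh e (𝟙_ 𝒯) R).inv ≫ ((𝟙_ 𝒯)⟦e⟧ ◁ b.c) := by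
      rw [Iso.comp_inv_eq, Category.assoc, rsh_nat_right, Iso.inv_hom_id_assoc]
    rw [reassoc_of% h3, Category.assoc, whisker_exchange]
  have h4 : (R ⊗ R) ◁ b.c ≫ (α_ R R P).hom ≫ R ◁ b.MP.act =
      (α_ R R R).hom ≫ R ◁ μ[R] ≫ R ◁ b.c := by
    rw [associator_naturality_right_assoc, ← MonoidalCategory.whiskerLeft_comp,
      ← MonoidalCategory.whiskerLeft_comp, b.c_lin]
  unfold lam
  rw [reassoc_of% h1, reassoc_of% h2, h4]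
  change _ = (((λ_ R).inv)⟦e⟧' ≫ fm (tensorRight R) t ≫ (α_ R R R).hom ≫ R ◁ μ[R]) ≫ R ◁ b.c
  simp only [Category.assoc]

theorem c_coo {Y : 𝒯} (E : ℕ →₀ ℕ) {k : ℤ} (a : P⟦k⟧ ⟶ (ihom R).obj Y)
    (a₁ : R⟦k⟧ ⟶ (ihom R).obj Y) (h : fm (tensorLeft R) a₁ ≫ evq R Y =
      ((β_ R R).hom)⟦k⟧' ≫ fm (tensorLeft R) (b.c⟦k⟧' ≫ a) ≫ evq R Y) :
    b.c⟦k + dT p E⟧' ≫ coo b Y E rfl a =
      hat (coind R Y) (gc rfl (b.τ E) (ext (coind R Y) a₁)) ≫ eps R Y := by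
  unfold coo
  rw [comp_gc, c_lam, lam_self, gc_map, gc_map]
  have h1 : (R ◁ b.c)⟦k⟧' ≫ fm (tensorLeft R) a = fm (tensorLeft R) (b.c⟦k⟧' ≫ a) :=
    (shift_fm (tensorLeft R) b.c a).symm
  rw [reassoc_of% h1, ← h, ← ext_eps, gc_comp, hat_gc_lin (ext_isLin (coind R Y) a₁) rfl]

/-- **Freeness over the last factor.** -/
theorem coo_bij {Y : 𝒯} (hY : H395.PComplete p Y) (k : ℤ) :
    Function.Bijective fun (a : P⟦k⟧ ⟶ (ihom R).obj Y) (E : ℕ →₀ ℕ) =>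
      coo b Y E rfl a := by
  have hQ := pcomplete_ihom R hY
  constructor
  · intro a a' haa
    obtain ⟨a₁, h₁⟩ := fm_evq_surj R Y (((β_ R R).hom)⟦k⟧' ≫
      fm (tensorLeft R) (b.c⟦k⟧' ≫ a) ≫ evq R Y)
    obtain ⟨a₁', h₁'⟩ := fm_evq_surj R Y (((β_ R R).hom)⟦k⟧' ≫
      fm (tensorLeft R) (b.c⟦k⟧' ≫ a') ≫ evq R Y)
    have h2 : a₁ = a₁' := by
      refine (b.basis (coind R Y) hQ k (fun E => gc rfl (b.τ E) (ext (coind R Y) a₁'))).unique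
        (fun E => ?_) (fun E => rfl)
      apply hat_eps_inj R Y
      rw [← c_coo b E a a₁ h₁, ← c_coo b E a' a₁' h₁']
      exact congrArg (fun z => b.c⟦k + dT p E⟧' ≫ z) (congrFun haa E)
    rw [h2, h₁'] at h₁
    exact b.cext_unique hQ (fm_evq_inj R Y ((cancel_epi _).1 h₁)).symm
  · intro y
    choose z hz using fun E => hat_eps_surj R Y (b.c⟦k + dT p E⟧' ≫ y E)
    obtain ⟨a₁, h₁, -⟩ := b.basis (coind R Y) hQ k z
    obtain ⟨a₀, h₀⟩ := fm_evq_surj R Y (((β_ R R).hom)⟦k⟧' ≫ fm (tensorLeft R) a₁ ≫ evq R Y)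
    refine ⟨b.cext hQ a₀, funext fun E => b.cext_unique hY ?_⟩
    rw [c_coo b E _ a₁, h₁ E, hz E]
    rw [b.c_cext, h₀, ← Functor.map_comp_assoc, SymmetricCategory.symmetry,
      CategoryTheory.Functor.map_id, Category.id_comp]

end

end Vale.Agent.P221.T.H903
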